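import Crest.Agent.X212.Cht98.TrI
import Crest.Agent.X212.Cht98.TrC
import Crest.Agent.X212.Cht98.TrA
import Crest.Agent.X212.Eqv71.Cyl

/-! Row 212, IX-NATZ (helper28): the transports along a translation of the cylinder. -/

set_option autoImplicit false
set_option linter.unusedSectionVars false
noncomputable section
open scoped Manifold ContDiff Topology InnerProductSpace
open MeasureTheory Set Function Filter

namespace Crest.Agent.X212.Ntz28
open An An.Pre Sob92 Nd18 Nk89 Map77 Mod61 Cyf70 Cht98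
open M hiding ab
open Eqv71 (csL me_of_meq sa_comp)

variable {κ lam : Type} [Fintype κ] [Fintype lam]

theorem ab_le (s : ℝ) : ab s ≤ |s| ∧ |s| ≤ ab s + 1 := by
  have h := Real.smoothTransition.le_one
  rcases le_total 0 s with k | k
  · rw [abs_of_nonneg k]
    refine ⟨?_, (le_total 1 s).elim (fun e => by rw [ab_eq (.inl rfl) (by linarith)]; linarith)
      fun e => by linarith [ab_nonneg s]⟩
    rw [ab, Real.smoothTransition.zero_of_nonpos (neg_nonpos.2 k)]; nlinarith [h s]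
  · rw [abs_of_nonpos k]
    refine ⟨?_, (le_total s (-1)).elim (fun e => by rw [ab_eq (.inr rfl) (by linarith)]; linarith)
      fun e => by linarith [ab_nonneg s]⟩
    rw [ab, Real.smoothTransition.zero_of_nonpos k]; nlinarith [h (-s)]

/-- weighted frames along a global isometry -/
theorem ld_wt {Z : Mf 4} {ι : Type} [Fintype ι] {F : Pre Z.I Z.M ι} {φ : OpenPartialHomeomorph Z.M Z.M}
    (h : Iso F F φ) (h1 : φ.source = univ) (h2 : φ.target = univ) {ψ : Z.M → ℝ} (hψ : Sm Z.I ψ)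
    {c : ℝ} (hc : ∀ x, ψ x ≤ ψ (φ x) + c) : LD φ univ (wtP F ψ hψ) (wtP F ψ hψ) := by
  classical
  have a : ∀ K, IsClosed K → Adm φ K := fun K hK =>
    Adm.mono ⟨h2.ge, by simp [h1]⟩ hK (subset_univ K)
  refine ⟨h.sm, a _ isClosed_univ, ⟨fun a b _ => if a = b then 1 else 0, fun _ _ => Cb_const _,
    fun a x hx _ => (h.e a x hx).trans (by simp [wtP])⟩, (Real.exp (2 * c)).toNNReal, fun g g1 g2 g3 _ => ?_⟩
  have := F.fin
  have e : Continuous fun y => Real.exp (2 * ψ y) • g y := by have := hψ.continuous; fun_prop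
  show ∫ x, _ ∂wm F.μ ψ ≤ _ * ∫ x, _ ∂wm F.μ ψ
  rw [integral_wm hψ.continuous, integral_wm hψ.continuous, ← int_pull h.μ e (h2 ▸ subset_univ _),
    Real.coe_toNNReal _ (Real.exp_pos _).le, ← integral_const_mul]
  refine integral_mono_of_nonneg (.of_forall fun x => ?_)
    (((cont_pull e (a _ (isClosed_tsupport _))).integrable_of_hasCompactSupport
      (hcs_pull (g2.mono fun y hy e => hy (by simp [e])) (h2 ▸ subset_univ _))).const_mul _) (.of_forall fun x => ?_) <;>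
    simp only [pull_of_mem (h1.ge (mem_univ x)), smul_eq_mul]
  · exact mul_nonneg (Real.exp_pos _).le (g3 _)
  · rw [← mul_assoc, ← Real.exp_add]
    exact mul_le_mul_of_nonneg_right (Real.exp_le_exp.2 (by linarith [hc x])) (g3 _)

/-- **NATZ (c)**: the transports -/
theorem tauZ {k : ℕ} (hk : 4 ≤ k) (Y : Mf 3) [CompactSpace Y.M] (D : YD Y.I Y.M κ lam) (δ : ℝ)
    (β β' : YC Y.M κ lam) (O O' : Set (Y.M × ℝ)) (h : D.Adm β) (h' : D.Adm β')
    (h0 : ∀ x ∉ O, β.Φ x.1 = 0) (h0' : ∀ x ∉ O', β'.Φ x.1 = 0) (l : ℝ)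
    (w₀ : Y.M → CL β.m.V β'.m.V) (ζ : Circle) (hD : D.OK) (ok : (famZ T0 D δ O).OK)
    (ok' : (famZ T0 D δ O').OK) (hO : ∀ z z', z ∈ O ↔ z' ∈ O') (_ : Sm Y.I w₀)
    (c : CEq D.Z (cy β) (cy β') univ (fun z => (z.1, z.2 + l)) (fun z i j => D.B.P i j z)
      D.B.l (fun z => w₀ z.1) ζ) :
    ∃ (τC : (famZ T0 D δ O).F0.H (k + 1) (bd (refZ T0 δ h h0)).pC →L[ℝ]
        (famZ T0 D δ O').F0.H (k + 1) (bd (refZ T0 δ h' h0')).pC)
      (τF : (famZ T0 D δ O).F0.H k (ps (refZ T0 δ h h0).Pg (bd (refZ T0 δ h h0)).pE) →L[ℝ]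
        (famZ T0 D δ O').F0.H k (ps (refZ T0 δ h' h0').Pg (bd (refZ T0 δ h' h0')).pE)),
      (∀ u z, (famZ T0 D δ O').F0.val (k + 1) _ (τC u) (z.1, z.2 + l) =
        ΛC (fun i j => D.B.P i j z) (csL β'.m.J ζ ∘L w₀ z.1)
          ((famZ T0 D δ O).F0.val (k + 1) _ u z)) ∧
      ∀ u z, (famZ T0 D δ O').F0.val k _ (τF u) (z.1, z.2 + l) =
        ΛF (fun i j => D.B.P i j z) (csL β'.m.J ζ ∘L w₀ z.1) ((famZ T0 D δ O).F0.val k _ u z) := by
  let φ := (tau Y.M l).toOpenPartialHomeomorph.symm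
  have d : LD φ univ (famZ T0 D δ O').F0.toPre (famZ T0 D δ O).F0.toPre :=
    ld_wt (Z := cylM Y) (iso_symm (iso_tau D.F.toPre l)) rfl rfl (ψ := fun x => δ * ab x.2)
      (sm_snd (contDiff_const.mul sm_ab)) (c := |δ| * (|l| + 1)) fun x => by
      have := abs_le.1 (abs_abs_sub_abs_le_abs_sub x.2 (x.2 + -l))
      rw [show x.2 - (x.2 + -l) = l by ring] at this
      refine sub_le_iff_le_add'.1 ((le_abs_self _).trans ?_)
      show |δ * ab x.2 - δ * ab (x.2 + -l)| ≤ _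
      rw [← mul_sub, abs_mul]
      exact mul_le_mul_of_nonneg_left (abs_le.2 ⟨by linarith [ab_le x.2, ab_le (x.2 + -l)],
        by linarith [ab_le x.2, ab_le (x.2 + -l)]⟩) (abs_nonneg _)
  have g := ((Eqv71.okZ hD Y.dim.le).kc_sh l).toLG
  have pr : ∀ z, PR (fun i j => D.B.P i j z) (csL β'.m.J ζ ∘L w₀ z.1) (bd (refZ T0 δ h h0))
      (bd (refZ T0 δ h' h0')) z (z.1, z.2 + l) := fun z =>
    pr_of (o := refZ T0 δ h h0) (o' := refZ T0 δ h' h0') ok.B ok'.B
      ((g.be z trivial).phase ok'.B (ζ * ζ)) ((me_of_meq c.m (mem_univ z)).phase h'.adm.ok ζ) trivial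
      trivial (hO _ _).symm
  have e : ∀ x, ((φ x).1, (φ x).2 + l) = x := fun x => φ.left_inv trivial
  have e' : ∀ z : Y.M × ℝ, φ (z.1, z.2 + l) = z := fun z => φ.right_inv trivial
  have P : ∀ z : Y.M × ℝ, (fun i j => D.B.P i j (z.1, 0)) = fun i j => D.B.P i j z := fun z =>
    funext₂ fun i j => by cases i <;> cases j <;> rfl
  have s1 := fun (z : Y.M × ℝ) i j => hD.B.sP i j z
  have s2 : ∀ z : Y.M × ℝ, Wz78.SA _ (fun z : Y.M × ℝ => csL β'.m.J ζ ∘L w₀ z.1) z := fun z =>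
    sa_comp contMDiffAt_const (c.m.su.contMDiffAt univ_mem)
  have c1 := cbZ (T := T0) (D := D) (δ := δ) (O' := O) (f := fun y => ΛC
    (fun i j => D.B.P i j (y, 0)) (csL β'.m.J ζ ∘L w₀ y)) (by
      simp only [P]; exact fun z => sa_ΛC (s1 z) (s2 z))
  have c2 := cbZ (T := T0) (D := D) (δ := δ) (O' := O) (f := fun y => ΛF
    (fun i j => D.B.P i j (y, 0)) (csL β'.m.J ζ ∘L w₀ y)) (by
      simp only [P]; exact fun z => sa_ΛF (s1 z) (s2 z))
  simp only [P] at c1 c2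
  have r1 := d.rep (k := k + 1) c1 (subset_univ _) fun x _ v hv =>
    (e x ▸ (pr (φ x)).pC v :).trans (congrArg _ hv)
  have r2 := d.rep (k := k) c2 (subset_univ _) fun x _ v hv =>
    (e x ▸ (pr (φ x)).pF v :).trans (congrArg _ hv)
  exact ⟨_, _, fun u z => (val_pull r1 ok'.sup ok.sup (by omega) (by omega) u _).trans
    ((pull_of_mem (φ := φ) trivial _).trans (by rw [e'])), fun u z => (val_pull r2 ok'.sup ok.sup hk hk u _).trans
      ((pull_of_mem (φ := φ) trivial _).trans (by rw [e']))⟩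

end Crest.Agent.X212.Ntz28
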